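import Vale.Agent.P371.Bdl.B2

/-!
The sharp one-dimensional Lieb-Thirring constants for `1/2 < γ < 3/2`, scalar and matrix
potentials.
-/

namespace Vale.Agent.Results.P371.FullRange

open Vale.Agent.P371.LT

/-- For all `1/2 < γ < 3/2` and `m ≥ 1`:
`L_γ(m) = 2 ((γ-1/2)/(γ+1/2))^(γ-1/2) L^cl_γ`, `L_γ(1) = L^{(1)}_γ` (the Lieb-Thirring
conjecture) and `L_γ(m) = L_γ(1)`. -/
theorem result (γ : ℝ) (hγ : 1 / 2 < γ) (hγ' : γ < 3 / 2) (m : ℕ) (hm : 1 ≤ m) :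
    LTconst γ m = ENNReal.ofReal (2 * ((γ - 1 / 2) / (γ + 1 / 2)) ^ (γ - 1 / 2) * Lcl γ) ∧
    LTconst γ 1 = LTone γ ∧ LTconst γ m = LTconst γ 1 := by
  obtain ⟨h1, h2, h3⟩ := Vale.Agent.P371.G.final_of_main hγ
    (fun N m => Vale.Agent.P371.PI.mainHyp hγ hγ' N m) m hm
  exact ⟨h1.trans h3, h2.symm.trans h1, h2⟩

end Vale.Agent.Results.P371.FullRange
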